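import Crest.Agent.X262.Read67.Sd
import Crest.Agent.X262.Cd62.Prj
import Crest.Agent.X262.Vb37.Univ
import Crest.Agent.X262.Vb37.Nrm

/-!
# Row 262, road B (helper95): existence of the special datum of the concave end

* `exists_pgen` : the generic point of a projective space over a field;
* `exists_over` : a datum with algebraically generating moduli is the universal one;
* `nrmUp_dat`, `mdim_up`, `exSD`.
-/

set_option autoImplicit false
set_option linter.unusedSectionVars false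

noncomputable section

namespace Crest.Agent.X262.Sd95

open Crest.Agent.X277 Crest.Agent.X277.BD Polynomial
open Crest.Agent.X262.Hb Crest.Agent.X262.Vb Crest.Agent.X262.Read67
open Crest.Agent.X262.Conc78 (Cd)
open Crest.Agent.X262.Bub96 (hv)
open Crest.Agent.X262.Bub96.Tr (dot)
open IntermediateField (adjoin subset_adjoin)

section Fld

variable {K F L : Type} [Field K] [Algebra ℂ K] [Field F] [Algebra ℂ F] [Field L] [Algebra ℂ L]

variable (K) in
theorem exists_pgen [Algebra.EssFiniteType ℂ K] (Y : Type) [Fintype Y] [h : Nonempty Y] :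
    ∃ (F : Type) (_ : Field F) (_ : Algebra ℂ F) (_ : Algebra.EssFiniteType ℂ F) (θ : K →ₐ[ℂ] F)
      (μ : Y → F), PGen θ μ := by
  classical
  obtain ⟨x₀⟩ := h
  let R := MvPolynomial {x // x ≠ x₀} K
  let F := FractionRing R
  have hF : Algebra.EssFiniteType ℂ F := Algebra.EssFiniteType.comp ℂ K F
  let μ : Y → F := fun x => if h : x = x₀ then 1 else algebraMap R F (MvPolynomial.X ⟨x, h⟩)
  refine ⟨F, inferInstance, inferInstance, hF, IsScalarTower.toAlgHom ℂ K F, μ, fun x => ?_, ?_, ?_⟩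
  · by_cases hx : x = x₀
    · simp [μ, hx]
    · simp only [μ, dif_neg hx]
      exact (map_ne_zero_iff _ (IsFractionRing.injective R F)).2 (MvPolynomial.X_ne_zero _)
  · rw [eq_top_iff]
    intro t _
    obtain ⟨a, b, -, rfl⟩ := IsFractionRing.div_surjective (A := R) t
    have key : ∀ a : R, algebraMap R F a ∈ adjoin ℂ (Set.range (IsScalarTower.toAlgHom ℂ K F) ∪
        {t | ∃ x x', t = μ x / μ x'}) := by
      intro a
      induction a using MvPolynomial.induction_on with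
      | C s => exact subset_adjoin _ _ (Or.inl ⟨s, rfl⟩)
      | add p q hp hq => rw [map_add]; exact add_mem hp hq
      | mul_X p n hp =>
        rw [map_mul]
        exact mul_mem hp (subset_adjoin _ _ (Or.inr ⟨n.1, x₀, by simp [μ, n.2]⟩))
    exact div_mem (key a) (key b)
  · have h1 := trdeg_add_eq K R (A := F)
    have := IsLocalization.isAlgebraic F (nonZeroDivisors R)
    rw [MvPolynomial.trdeg_of_isDomain, trdeg_eq_zero, add_zero, Cardinal.lift_id,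
      Cardinal.mk_fintype] at h1
    have h2 := trdeg_add_eq ℂ K (A := F)
    rw [← h1, trdeg_eq_dim, trdeg_eq_dim, ← Nat.cast_add, Nat.cast_inj] at h2
    have h3 := Fintype.card_subtype_compl fun x => x = x₀
    have h4 : 0 < Fintype.card Y := Fintype.card_pos_iff.2 ⟨x₀⟩
    rw [Fintype.card_subtype_eq] at h3
    have h5 : Fintype.card {x // x ≠ x₀} = Fintype.card Y - 1 := by convert h3
    omega

theorem mem_of_pgen {Y : Type} [Fintype Y] {θ : K →ₐ[ℂ] F} {μ : Y → F} (g : PGen θ μ)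
    (β : F →ₐ[ℂ] L) {G : IntermediateField ℂ L} (h1 : ∀ x, β (θ x) ∈ G)
    (h2 : ∀ x x', β (μ x) / β (μ x') ∈ G) (f : F) : β f ∈ G := by
  have h : adjoin ℂ (Set.range θ ∪ {t | ∃ x x', t = μ x / μ x'}) ≤ G.comap β := by
    rw [IntermediateField.adjoin_le_iff]
    rintro _ (⟨x, rfl⟩ | ⟨x, x', rfl⟩)
    · exact h1 x
    · change β (μ x / μ x') ∈ G
      rw [map_div₀]
      exact h2 x x'
  exact h (g.gen ▸ IntermediateField.mem_top)

theorem alg_of_deg {θ : K →ₐ[ℂ] F} (h : 0 < deg θ) (β : F →ₐ[ℂ] L) {G : IntermediateField ℂ L}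
    (h1 : ∀ x, β (θ x) ∈ G) (f : F) : IsAlgebraic G (β f) := by
  let _ := θ.toRingHom.toAlgebra
  have : FiniteDimensional K F := Module.finite_of_finrank_pos h
  let φ : K →+* G := ((β.comp θ : K →ₐ[ℂ] L) : K →+* L).codRestrict G h1
  exact (Algebra.IsAlgebraic.isAlgebraic (R := K) f).ringHom_of_comp_eq φ (β : F →+* L)
    φ.injective (RingHom.ext fun _ => rfl)

end Fld

variable {J : Type} [Fintype J] [DecidableEq J] {io : J → Type} [∀ j, Fintype (io j)]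
  [∀ j, DecidableEq (io j)] {J₀ : Type} [Fintype J₀] [DecidableEq J₀] {io₀ : J₀ → Type}
  [∀ j, Fintype (io₀ j)] [∀ j, DecidableEq (io₀ j)] {I M K L : Type} [Fintype M] [Field K]
  [Algebra ℂ K] [Field L] [Algebra ℂ L]

/-- a normalised datum whose moduli generate the field up to an algebraic extension -/
theorem exists_over {d : J → ℕ} [Algebra.EssFiniteType ℂ L] (η : Dat io d I L) (m : M → I)
    (h3 : ∃ a b c, η.x (m a) = none ∧ η.x (m b) = some 0 ∧ η.x (m c) = some 1)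
    (hd : dim ℂ L = mdim io d (Fintype.card M))
    (ha : ∀ f : L, IsAlgebraic (adjoin ℂ (η.res m).crd) f) :
    ∃ (F : Type) (_ : Field F) (_ : Algebra ℂ F) (_ : Algebra.EssFiniteType ℂ F) (τ : F →ₐ[ℂ] L),
      Over η m τ ∧ 0 < deg τ := by
  set F := adjoin ℂ (η.res m).crd with hF
  obtain ⟨ζ, hx, s, hs, hf⟩ := Vb37.exists_desc (η.res m) F (subset_adjoin _ _)
  have : Algebra.IsAlgebraic F L := ⟨ha⟩
  have ht : Algebra.trdeg ℂ F = dim ℂ L := by
    have h := trdeg_add_eq ℂ F (A := L)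
    rwa [trdeg_eq_zero (R := F), add_zero, trdeg_eq_dim (F := L)] at h
  have hu : ζ.Univ := by
    obtain ⟨a, b, c, h1, h2, h4⟩ := h3
    have hi := Option.map_injective (f := (F.val : F → L)) F.val.injective
    refine ⟨⟨a, b, c, hi ((congrFun hx a).trans h1), hi ((congrFun hx b).trans h2),
      hi ((congrFun hx c).trans h4)⟩, ?_, by rw [ht, hd]⟩
    apply IntermediateField.map_injective F.val
    rw [IntermediateField.adjoin_map, ← Vb37.crd_map, ← Vb37.crd_eq hx.symm hs hf, ← hF,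
      ← AlgHom.fieldRange_eq_map, IntermediateField.fieldRange_val]
  have hE := Vb37.univ_essFT hu
  refine ⟨F, inferInstance, inferInstance, hE, F.val, ⟨ζ, hu, Vb37.eqv_of_scl hx.symm hs hf⟩,
    (deg_pos_iff _).2 ?_⟩
  rw [trdeg_eq_dim, Nat.cast_inj] at ht
  exact ht.symm

variable (r : Cd io₀ io) {d₀ : J₀ → ℕ}

theorem mdim_up {n : ℕ} (hn : 3 ≤ n) : mdim io (r.up d₀) n =
    mdim io₀ d₀ n + ((Fintype.card (io r.cn.jC) - 1) + (Fintype.card (io r.cn.jS) - 1)) := by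
  have h : ∀ k, Fintype.card (io (r.e (some (some k)))) = Fintype.card (io₀ k) := fun k =>
    (Fintype.card_congr (r.ei k)).symm
  rw [mdim, mdim, Cd62.sum_e r]
  simp only [Cd.up_C, Cd.up_S, Cd.up_k, h, zero_add, mul_one]
  change _ = _ + ((Fintype.card (io (r.e none)) - 1) + (Fintype.card (io (r.e (some none))) - 1))
  omega

theorem dot_eq (κ : J → ℕ) : dot κ (r.up d₀) = dot (fun k => κ (r.e (some (some k)))) d₀ := by
  simp [dot, Cd62.sum_e r]

theorem lw_tri (κ : J → ℕ) (y : Pnt io₀ K) (μ : io r.cn.jS → K) (ζ : io r.cn.jC → K) :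
    lw κ (tri r y μ ζ) = (κ (r.e none) • mxf ℂ ζ + κ (r.e (some none)) • mxf ℂ μ) +
      lw (fun k => κ (r.e (some (some k)))) y := by
  rw [lw, Cd62.sum_e r, add_assoc, ln, ln, tri_C, tri_S]
  simp only [← Cd62.ln_pr, pr_tri]
  rfl

theorem nrmUp_dat {ξ : Dat io₀ d₀ I K} {N : ℕ} (h : ξ.NrmUp N) {μ : io r.cn.jS → K}
    {ζ : io r.cn.jC → K} (hμ : ∃ i, μ i ≠ 0) (hζ : ∃ i, ζ i ≠ 0) :
    (dat r ξ μ ζ hμ hζ).NrmUp N := fun κ hκ L _ _ α W σ hσ hq t => by
  simp only [dat_map, dat_pt, dat_x, lw_tri, dot_eq, val_add] at hσ hq ⊢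
  generalize hb : κ (r.e none) • mxf ℂ (α ∘ ζ) + κ (r.e (some none)) • mxf ℂ (α ∘ μ) = b
  have hb' := congrArg (fun a => BD.val a W) hb
  simp only [val_add] at hb'
  rw [hb'] at hq ⊢
  have key : ∀ (x : L) (γ : W.1.ValueGroup), W.v ((b.gen W)⁻¹ * x) ≤ γ ↔ W.v x ≤ b.val W * γ :=
    fun x γ => by rw [map_mul, map_inv₀, v_gen, inv_mul_le_iff₀ (b.val_pos W)]
  have h1 := h _ (fun k => hκ _) L α W (C (b.gen W)⁻¹ * σ) ((natDegree_C_mul_le _ _).trans hσ)
  simp only [Vb37.hv_C_mul, key] at h1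
  exact h1 hq t

theorem crd_dat (ξ : Dat io₀ d₀ I K) {μ : io r.cn.jS → K} {ζ : io r.cn.jC → K}
    (hμ : ∃ i, μ i ≠ 0) (hζ : ∃ i, ζ i ≠ 0) :
    ξ.crd ⊆ (dat r ξ μ ζ hμ hζ).crd ∧ (∀ i i', μ i / μ i' ∈ (dat r ξ μ ζ hμ hζ).crd) ∧
      ∀ i i', ζ i / ζ i' ∈ (dat r ξ μ ζ hμ hζ).crd := by
  refine ⟨?_, fun i i' => Or.inl ⟨r.e (some none), i, i', 0, 0, ?_⟩,
    fun i i' => Or.inl ⟨r.e none, i, i', 0, 0, ?_⟩⟩
  · rintro t (⟨k, i, i', l, l', rfl⟩ | h)
    · exact Or.inl ⟨_, r.ei k i, r.ei k i', l, l', by rw [dat_f_k, dat_f_k]⟩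
    · exact Or.inr h
  · rw [dat_f_S]; simp
  · rw [dat_f_C]; simp

/-- **the special datum exists** -/
theorem exSD : ExSD := by
  intro J _ _ io _ _ J₀ _ _ io₀ _ _ r d₀ M _ N hM hio hS
  have hC : Nonempty (io r.cn.jC) := ⟨r.cn.f none⟩
  obtain ⟨K₀, _, _, _, ξ₀, hu⟩ := Vb37.exists_univ' hio hM
  obtain ⟨K, _, _, _, θ₀, n, ξ, hθ, hr, hN⟩ := Vb37.exNrm ξ₀ N
  obtain ⟨K₁, _, _, _, a₁, ζ, gζ⟩ := exists_pgen K (io r.cn.jC)
  obtain ⟨K₂, _, _, _, a₂, μ, gμ⟩ := exists_pgen K₁ (io r.cn.jS)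
  have hζ := ex_comp gζ.ex a₂
  let η := dat r (ξ.map (a₂.comp a₁)) μ (a₂ ∘ ζ) gμ.ex hζ
  have he : η.res Sum.inl = dat r (ξ₀.map ((a₂.comp a₁).comp θ₀)) μ (a₂ ∘ ζ) gμ.ex hζ := by
    rw [← Vb37.dmap_map, ← hr, Vb37.dmap_res]
    rfl
  have hx : ∀ q, η.x (.inl q) = (ξ₀.x q).map ((a₂.comp a₁).comp θ₀) := fun q =>
    congrFun (congrArg Dat.x he) q
  obtain ⟨F₀, _, _, _, τ, h1, h2⟩ := exists_over η Sum.inl
    (by
      obtain ⟨a, b, c, h1, h2, h3⟩ := hu.1
      exact ⟨a, b, c, by rw [hx, h1]; rfl, by rw [hx, h2]; simp, by rw [hx, h3]; simp⟩)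
    (by
      have e0 := hu.2.2
      rw [trdeg_eq_dim, Nat.cast_inj] at e0
      have e1 := (deg_pos_iff _).1 hθ
      have e2 := gζ.dm
      have e3 := gμ.dm
      have e4 : 0 < Fintype.card (io r.cn.jC) := Fintype.card_pos
      have e5 : 0 < Fintype.card (io r.cn.jS) := Fintype.card_pos
      rw [mdim_up r hM]
      omega)
    (by
      rw [he]
      obtain ⟨c1, c2, c3⟩ := crd_dat r (ξ₀.map ((a₂.comp a₁).comp θ₀)) gμ.ex hζ
      generalize (dat r (ξ₀.map ((a₂.comp a₁).comp θ₀)) μ (a₂ ∘ ζ) gμ.ex hζ).crd = Z at c1 c2 c3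
      let G : IntermediateField ℂ K₂ := (algebraicClosure (adjoin ℂ Z) K₂).restrictScalars ℂ
      have hG : ∀ f, f ∈ G ↔ IsAlgebraic (adjoin ℂ Z) f := fun f => mem_algebraicClosure_iff
      have hZ : ∀ f ∈ Z, f ∈ G := fun f hf =>
        (hG f).2 (isAlgebraic_algebraMap (⟨f, subset_adjoin _ _ hf⟩ : adjoin ℂ Z))
      have h0 : ∀ x, (a₂.comp a₁) (θ₀ x) ∈ adjoin ℂ Z := fun x => by
        refine IntermediateField.adjoin.mono _ _ _ c1 ?_
        rw [Vb37.crd_map, ← IntermediateField.adjoin_map, hu.2.1]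
        exact ⟨x, trivial, rfl⟩
      exact fun f => (hG f).1 (mem_of_pgen gμ (AlgHom.id ℂ K₂) (mem_of_pgen gζ a₂
        (fun x => (hG _).2 (alg_of_deg hθ (a₂.comp a₁) h0 x)) fun i i' => hZ _ (c3 i i'))
        (fun i i' => hZ _ (c2 i i')) f))
  exact ⟨{
    I := M ⊕ Fin n, K₀ := K₀, K := K, K₁ := K₁, K₂ := K₂, F₀ := F₀, ξ := ξ, m := Sum.inl, θ₀ := θ₀
    ov := ⟨ξ₀, hu, hr ▸ Vb37.eqv_refl _⟩
    pos := hθ, nrm := hN, a₁ := a₁, ζ := ζ, gζ := gζ, hζ := gζ.ex, a₂ := a₂, μ := μ, gμ := gμ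
    hμ := gμ.ex, τ := τ, ov' := h1, pos' := h2
    nrm' := nrmUp_dat r (Vb37.nrmUp_map hN _) _ _ }⟩

end Crest.Agent.X262.Sd95
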